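import Mathlib

-- ▼ part X262/Sark46/Arr
section

/-!
# Row 262, SARK (helper46): hyperplane arrangements

`l i : Λ →+ ℤ` is a finite family of forms.

* `Conf l x y` : no form separates `x` and `y`; `Face l x y` : `x` lies in the closed cell of `y`;
* `Zs l x` : the span of the cell of `x`; `Cham l y` : the cell of `y` is open;
  `Cd1`, `Cd2` : the cell has codimension at most one, two;
* `In l I x` : the cone cut out by the forms of `I`; `Inn` : its interior;
* `chain` : every additive subsemigroup is connected for the face relation;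
* `In.exists_cham` : every point of a cone with interior is a face of a chamber of the cone.
-/

set_option autoImplicit false

open Filter

namespace Crest.Agent.X262.Sark46

variable {Λ ι : Type*} [AddCommGroup Λ] (l : ι → Λ →+ ℤ)

/-- no form separates `x` and `y` -/
def Conf (x y : Λ) : Prop := ∀ i, 0 ≤ l i x * l i y

/-- `x` lies in the closure of the cell of `y` -/
def Face (x y : Λ) : Prop := ∀ i, l i x = 0 ∨ 0 < l i x * l i y

/-- the span of the cell of `x` -/
def Zs (x : Λ) : AddSubgroup Λ where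
  carrier := {z | ∀ i, l i x = 0 → l i z = 0}
  add_mem' ha hb i hi := by rw [map_add, ha i hi, hb i hi, add_zero]
  zero_mem' i _ := map_zero _
  neg_mem' ha i hi := by rw [map_neg, ha i hi, neg_zero]

/-- the cell of `y` is open -/
def Cham (y : Λ) : Prop := ∀ i, l i y = 0 → l i = 0

/-- the cell of `x` has codimension at most one -/
def Cd1 (x : Λ) : Prop :=
  ∀ y z : Λ, ∃ a b : ℤ, (a ≠ 0 ∨ b ≠ 0) ∧ a • y + b • z ∈ Zs l x

/-- the cell of `x` has codimension at most two -/
def Cd2 (x : Λ) : Prop :=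
  ∀ y z w : Λ, ∃ a b c : ℤ, (a ≠ 0 ∨ b ≠ 0 ∨ c ≠ 0) ∧ a • y + b • z + c • w ∈ Zs l x

/-- the cone cut out by the forms of `I` -/
def In (I : Set ι) (x : Λ) : Prop := ∀ i ∈ I, 0 ≤ l i x

/-- the interior of the cone -/
def Inn (I : Set ι) (x : Λ) : Prop := ∀ i ∈ I, l i = 0 ∨ 0 < l i x

/-- open cones -/
def Opn (U : Λ → Prop) (u : Λ) : Prop := ∀ y, ∀ᶠ m : ℕ in atTop, U (m • u + y)

variable {l} {I : Set ι} {x y z w : Λ}

theorem mem_Zs : z ∈ Zs l x ↔ ∀ i, l i x = 0 → l i z = 0 := Iff.rfl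

theorem self_mem_Zs (x : Λ) : x ∈ Zs l x := fun _ h => h

theorem mem_Zs_of_zsmul {a : ℤ} (ha : a ≠ 0) (h : a • z ∈ Zs l x) : z ∈ Zs l x := fun i hi => by
  simpa [ha] using h i hi

theorem Face.rfl : Face l x x := fun i => (eq_or_ne (l i x) 0).imp_right mul_self_pos.2

theorem Face.conf (h : Face l x y) : Conf l x y := fun i =>
  (h i).elim (fun h => by simp [h]) le_of_lt

theorem Conf.symm (h : Conf l x y) : Conf l y x := fun i => mul_comm (l i x) _ ▸ h i

theorem Conf.rfl : Conf l x x := fun _ => mul_self_nonneg _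

theorem Face.trans (h : Face l x y) (h' : Face l y z) : Face l x z := fun i =>
  (h i).imp_right fun h1 => by
    rcases h' i with h2 | h2
    · simp [h2] at h1
    · have h3 : 0 < l i y * l i y := mul_self_pos.2 fun h => by simp [h] at h1
      have h4 : 0 < (l i x * l i z) * (l i y * l i y) := by nlinarith [mul_pos h1 h2]
      exact (mul_pos_iff_of_pos_right h3).1 h4


theorem Conf.face_add (h : Conf l x y) : Face l x (x + y) := fun i =>
  (eq_or_ne (l i x) 0).imp_right fun h1 => by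
    rw [map_add, mul_add]
    exact add_pos_of_pos_of_nonneg (mul_self_pos.2 h1) (h i)

theorem Conf.add (h : Conf l x y) (h' : Conf l x z) : Conf l x (y + z) := fun i => by
  rw [map_add, mul_add]
  exact add_nonneg (h i) (h' i)

theorem Conf.nsmul (h : Conf l x y) (m : ℕ) : Conf l x (m • y) := fun i => by
  rw [map_nsmul, nsmul_eq_mul, mul_left_comm]
  exact mul_nonneg (Nat.cast_nonneg m) (h i)

theorem Face.add (h : Face l x y) (h' : Conf l x z) : Face l x (y + z) := fun i =>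
  (h i).imp_right fun h1 => by
    rw [map_add, mul_add]
    exact add_pos_of_pos_of_nonneg h1 (h' i)

theorem Face.add_left (h : Face l x z) (h' : Face l y z) : Face l (x + y) z := fun i => by
  rw [map_add, add_mul]
  rcases h i with h1 | h1 <;> rcases h' i with h2 | h2
  · simp [h1, h2]
  · simp [h1, h2]
  · simp [h1, h2]
  · exact .inr (add_pos h1 h2)

theorem Face.nsmul (h : Face l x y) {m : ℕ} (hm : 0 < m) : Face l x (m • y) := fun i =>
  (h i).imp_right fun h1 => by
    rw [map_nsmul, nsmul_eq_mul, mul_left_comm]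
    exact mul_pos (Nat.cast_pos.2 hm) h1


theorem Face.Zs_le (h : Face l x y) : Zs l x ≤ Zs l y := fun _ hz i hi =>
  hz i ((h i).resolve_right (by simp [hi]))

theorem Face.mem_Zs (h : Face l x y) : x ∈ Zs l y := h.Zs_le (self_mem_Zs x)

theorem Face.symm_of_mem (h : Face l x y) (hy : y ∈ Zs l x) : Face l y x := fun i =>
  (h i).imp (hy i) fun h1 => mul_comm (l i x) _ ▸ h1

theorem Conf.face_of_mem (h : Conf l x y) (hx : x ∈ Zs l y) : Face l x y := fun i =>
  (eq_or_ne (l i x) 0).imp_right fun h1 =>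
    (h i).lt_of_ne' (mul_ne_zero h1 fun h2 => h1 (hx i h2))

theorem Cham.mem_Zs (h : Cham l y) (z : Λ) : z ∈ Zs l y := fun i hi => by simp [h i hi]

theorem cham_of_mem (h : ∀ z, z ∈ Zs l y) : Cham l y := fun i hi =>
  AddMonoidHom.ext fun z => h z i hi

theorem Cham.face (h : Cham l y) (hc : Conf l x y) : Face l x y := hc.face_of_mem (h.mem_Zs x)

theorem Cham.of_face (h : Cham l x) (hf : Face l x y) : Cham l y :=
  cham_of_mem fun z => hf.Zs_le (h.mem_Zs z)

theorem Cham.symm (h : Cham l x) (hf : Face l x y) : Face l y x := hf.symm_of_mem (h.mem_Zs y)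

theorem Cd2.of_face (h : Cd2 l x) (hf : Face l x y) : Cd2 l y := fun a b c =>
  (h a b c).imp fun _ h => h.imp fun _ h => h.imp fun _ h => ⟨h.1, hf.Zs_le h.2⟩

theorem Cd1.of_face (h : Cd1 l x) (hf : Face l x y) : Cd1 l y := fun a b =>
  (h a b).imp fun _ h => h.imp fun _ h => ⟨h.1, hf.Zs_le h.2⟩


theorem Cd1.cham (h : Cd1 l x) (hf : Face l x y) (hy : y ∉ Zs l x) : Cham l y :=
  cham_of_mem fun p => by
    obtain ⟨a, c, h1, h2⟩ := h p y
    refine mem_Zs_of_zsmul (a := a) (fun h3 => ?_) ?_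
    · simp only [h3, ne_eq, not_true, false_or, zero_smul, zero_add] at h1 h2
      exact hy (mem_Zs_of_zsmul h1 h2)
    · simpa using sub_mem (hf.Zs_le h2) (zsmul_mem (self_mem_Zs y) c)

theorem In.zero : In l I 0 := fun i _ => by simp

theorem In.add (h : In l I x) (h' : In l I y) : In l I (x + y) := fun i hi => by
  rw [map_add]
  exact add_nonneg (h i hi) (h' i hi)

theorem In.nsmul (h : In l I x) (m : ℕ) : In l I (m • x) := fun i hi => by
  rw [map_nsmul]
  exact nsmul_nonneg (h i hi) m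


theorem In.of_face (h : In l I y) (hf : Face l x y) : In l I x := fun i hi =>
  (hf i).elim (fun h => h.ge) fun h1 => by nlinarith [h i hi]

theorem Inn.in (h : Inn l I x) : In l I x := fun i hi =>
  (h i hi).elim (fun h => by simp [h]) le_of_lt

theorem Inn.add_in (h : Inn l I x) (h' : In l I y) : Inn l I (x + y) := fun i hi =>
  (h i hi).imp_right fun h1 => by
    rw [map_add]
    exact add_pos_of_pos_of_nonneg h1 (h' i hi)

theorem Inn.of_face (h : Inn l I x) (hf : Face l x y) : Inn l I y := fun i hi =>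
  (h i hi).imp_right fun h1 => (mul_pos_iff_of_pos_left h1).1 ((hf i).resolve_left h1.ne')

theorem Cham.inn (h : Cham l y) (hy : In l I y) : Inn l I y := fun i hi =>
  (hy i hi).eq_or_lt.imp_left fun h1 => h i h1.symm

theorem Opn.mono {U U' : Λ → Prop} (h : Opn U x) (hU : ∀ y, U y → U' y) : Opn U' x :=
  fun y => (h y).mono fun _ => hU _

theorem Opn.and {U U' : Λ → Prop} (h : Opn U x) (h' : Opn U' x) : Opn (fun y => U y ∧ U' y) x :=
  fun y => (h y).and (h' y)

theorem ev_pos {a : ℤ} (ha : 0 < a) (b : ℤ) : ∀ᶠ m : ℕ in atTop, 0 < m * a + b := by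
  filter_upwards [eventually_gt_atTop b.natAbs] with m hm
  have h1 : -b < (m : ℤ) := by omega
  nlinarith

theorem opn_pos (φ : Λ →+ ℤ) (h : 0 < φ x) : Opn (fun y => 0 < φ y) x := fun y => by
  simpa using ev_pos h (φ y)

theorem opn_neg (φ : Λ →+ ℤ) (h : φ x < 0) : Opn (fun y => φ y < 0) x :=
  (opn_pos (-φ) (by simpa using h)).mono fun y => by simp

variable [Finite ι]

theorem opn_face (l : ι → Λ →+ ℤ) (x : Λ) : Opn (Face l x) x := fun y =>
  eventually_all.2 fun i => by
    rcases eq_or_ne (l i x) 0 with h | h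
    · exact .of_forall fun _ => .inl h
    · filter_upwards [ev_pos (mul_self_pos.2 h) (l i x * l i y)] with m hm
      refine .inr (hm.trans_eq ?_)
      rw [map_add, map_nsmul, nsmul_eq_mul]
      ring

theorem Inn.opn (h : Inn l I x) : Opn (Inn l I) x := (opn_face l x).mono fun _ => h.of_face


theorem ev_ne (φ : Λ →+ ℤ) (x : Λ) (h : φ y ≠ 0) : ∀ᶠ m : ℕ in atTop, φ (m • x + y) ≠ 0 := by
  rcases lt_trichotomy (φ x) 0 with h1 | h1 | h1
  · exact (opn_neg φ h1 y).mono fun _ => ne_of_lt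
  · exact .of_forall fun m => by simpa [h1] using h
  · exact (opn_pos φ h1 y).mono fun _ => ne_of_gt

theorem exists_cham (l : ι → Λ →+ ℤ) : ∃ y, Cham l y := by
  classical
  have := Fintype.ofFinite ι
  suffices h : ∀ s : Finset ι, ∃ y, ∀ i ∈ s, l i y = 0 → l i = 0 from
    (h Finset.univ).imp fun y h i => h i (Finset.mem_univ i)
  intro s
  induction s using Finset.induction_on with
  | empty => exact ⟨0, by simp⟩
  | insert j s _ ih =>
    obtain ⟨y, hy⟩ := ih
    by_cases hj : l j = 0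
    · exact ⟨y, Finset.forall_mem_insert _ _ _ |>.2 ⟨fun _ => hj, hy⟩⟩
    obtain ⟨z, hz⟩ := DFunLike.ne_iff.1 hj
    obtain ⟨m, h1, h2⟩ := ((ev_ne (l j) y hz).and (opn_face l y z)).exists
    refine ⟨_, Finset.forall_mem_insert _ _ _ |>.2 ⟨fun h => absurd h h1, fun i hi h => ?_⟩⟩
    exact hy i hi ((h2 i).resolve_right (by simp only [h, mul_zero, lt_self_iff_false, not_false_iff]))

theorem Cham.ev (h : Cham l y) (x : Λ) : ∀ᶠ m : ℕ in atTop, Cham l (m • x + y) :=
  eventually_all.2 fun i => by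
    rcases eq_or_ne (l i y) 0 with h1 | h1
    · exact .of_forall fun _ _ => h i h1
    · exact (ev_ne (l i) x h1).mono fun _ h2 h3 => absurd h3 h2

/-- open cones contain generic points -/
theorem Opn.exists_cham {U : Λ → Prop} (h : Opn U x) (l : ι → Λ →+ ℤ) : ∃ y, U y ∧ Cham l y := by
  obtain ⟨y, hy⟩ := Sark46.exists_cham l
  obtain ⟨m, h1⟩ := ((h y).and (hy.ev x)).exists
  exact ⟨_, h1⟩

/-- every point of a cone with interior is a face of a chamber of the cone -/
theorem In.exists_cham {U : Λ → Prop} (hx : In l I x) (hw : Inn l I w) (hU : Opn U x) :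
    ∃ y, U y ∧ Cham l y ∧ In l I y ∧ Face l x y := by
  obtain ⟨y, h1, h2⟩ := hw.opn.exists_cham l
  obtain ⟨m, h3, h4, h5⟩ := ((hU y).and ((h2.ev x).and (opn_face l x y))).exists
  exact ⟨_, h3, h4, (hx.nsmul m).add h1.in, h5⟩

omit [Finite ι] in
theorem add_closed {S : Λ → Prop} (hS : ∀ x y, S x → S y → S (x + y)) (hx : S x) {m : ℕ}
    (hm : 0 < m) : S (m • x) := by
  induction m, hm using Nat.le_induction with
  | base => simpa using hx
  | succ m _ ih => exact succ_nsmul x m ▸ hS _ _ ih hx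

/-- **additive subsemigroups are connected for the face relation** -/
theorem chain (l : ι → Λ →+ ℤ) {S : Λ → Prop} (hS : ∀ x y, S x → S y → S (x + y))
    {R : Λ → Λ → Prop} (hR : Equivalence R) (h : ∀ x y, S x → S y → Face l x y → R x y)
    (hx : S x) (hy : S y) : R x y := by
  induction hn : {i | l i x * l i y < 0}.ncard using Nat.strong_induction_on
    generalizing x y with
  | _ n ih =>
  by_cases hc : Conf l x y
  · exact hR.trans (h _ _ hx (hS _ _ hx hy) hc.face_add)
      (hR.symm (h _ _ hy (hS _ _ hx hy) (add_comm x y ▸ hc.symm.face_add)))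
  obtain ⟨i, hi⟩ := not_forall.1 hc
  rw [not_le] at hi
  have h1 : 0 < (l i x).natAbs := Int.natAbs_pos.2 fun h => by simp [h] at hi
  have h2 : 0 < (l i y).natAbs := Int.natAbs_pos.2 fun h => by simp [h] at hi
  have h3 : l i ((l i y).natAbs • x + (l i x).natAbs • y) = 0 := by
    rw [map_add, map_nsmul, map_nsmul, nsmul_eq_mul, nsmul_eq_mul, Nat.cast_natAbs,
      Nat.cast_natAbs, Int.cast_id, Int.cast_id]
    rcases mul_neg_iff.1 hi with h | h
    · rw [abs_of_neg h.2, abs_of_pos h.1]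
      ring
    · rw [abs_of_pos h.2, abs_of_neg h.1]
      ring
  have hz := hS _ _ (add_closed hS hx h2) (add_closed hS hy h1)
  generalize (l i x).natAbs = b at h1 h3 hz
  generalize (l i y).natAbs = a at h2 h3 hz
  have h4 : (0 : ℤ) < a := Nat.cast_pos.2 h2
  have h5 : (0 : ℤ) < b := Nat.cast_pos.2 h1
  refine hR.trans (ih _ (hn ▸ Set.ncard_lt_ncard ⟨fun j hj => ?_, fun h => ?_⟩) hx hz rfl)
    (ih _ (hn ▸ Set.ncard_lt_ncard ⟨fun j hj => ?_, fun h => ?_⟩) hz hy rfl)
  · simp only [Set.mem_ofPred_eq, map_add, map_nsmul, nsmul_eq_mul] at hj ⊢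
    by_contra h6
    nlinarith [mul_nonneg h4.le (mul_self_nonneg (l j x)), mul_nonneg h5.le (not_lt.1 h6)]
  · have h6 := h hi
    simp only [Set.mem_ofPred_eq, h3, mul_zero, lt_self_iff_false] at h6
  · simp only [Set.mem_ofPred_eq, map_add, map_nsmul, nsmul_eq_mul] at hj ⊢
    by_contra h6
    nlinarith [mul_nonneg h5.le (mul_self_nonneg (l j y)), mul_nonneg h4.le (not_lt.1 h6)]
  · have h6 := h hi
    simp only [Set.mem_ofPred_eq, h3, zero_mul, lt_self_iff_false] at h6

end Crest.Agent.X262.Sark46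
end

-- ▼ part X262/Sark46/Path

/-!
# Row 262, SARK (helper46): the path of links in a hyperplane arrangement

* `exists_gp` : three points in general position;
* `walls`, `star` : chambers around a point of codimension two are joined by walls;
* `path` : the facets at two ends are joined by links at boundary points of codimension `≤ 2`.
-/

set_option autoImplicit false

open Filter

namespace Crest.Agent.X262.Sark46

variable {Λ ι : Type*} [AddCommGroup Λ] {l : ι → Λ →+ ℤ} {I : Set ι} {x y z w : Λ} [Finite ι]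

/-! ### general position -/

omit [Finite ι] in
theorem cd2_of (φ ψ : Λ →+ ℤ) (h : ∀ y, φ y = 0 → ψ y = 0 → y ∈ Zs l x) : Cd2 l x := by
  intro y z w
  suffices h1 : ∃ a b c : ℤ, (a ≠ 0 ∨ b ≠ 0 ∨ c ≠ 0) ∧ a * φ y + b * φ z + c * φ w = 0 ∧
      a * ψ y + b * ψ z + c * ψ w = 0 by
    obtain ⟨a, b, c, h1, h2, h3⟩ := h1
    exact ⟨a, b, c, h1, h _ (by simpa using h2) (by simpa using h3)⟩
  generalize φ y = p1, φ z = p2, φ w = p3, ψ y = q1, ψ z = q2, ψ w = q3
  by_cases h1 : p2 * q3 - p3 * q2 ≠ 0 ∨ p3 * q1 - p1 * q3 ≠ 0 ∨ p1 * q2 - p2 * q1 ≠ 0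
  · exact ⟨_, _, _, h1, by ring, by ring⟩
  simp only [not_or, not_not] at h1
  by_cases h2 : p2 ≠ 0 ∨ -p1 ≠ 0
  · exact ⟨p2, -p1, 0, h2.imp_right .inl, by ring, by linear_combination -h1.2.2⟩
  by_cases h3 : q2 ≠ 0 ∨ -q1 ≠ 0
  · exact ⟨q2, -q1, 0, h3.imp_right .inl, by linear_combination h1.2.2, by ring⟩
  simp only [not_or, not_not, neg_eq_zero] at h2 h3
  exact ⟨1, 0, 0, .inl one_ne_zero, by simp [h2.2], by simp [h3.2]⟩

omit [Finite ι] in
theorem cd1_of (φ : Λ →+ ℤ) (h : ∀ y, φ y = 0 → y ∈ Zs l x) : Cd1 l x := fun y z => by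
  by_cases h1 : φ z ≠ 0 ∨ -φ y ≠ 0
  · exact ⟨_, _, h1, h _ (by simp [mul_comm])⟩
  · simp only [not_or, not_not, neg_eq_zero] at h1
    exact ⟨1, 0, .inl one_ne_zero, h _ (by simp [h1.2])⟩

variable (l) in
/-- the point of the plane of `u` and `w` on the hyperplane `i` -/
def ent (u : Λ) (i : ι) : Λ →+ Λ where
  toFun w := l i w • u - l i u • w
  map_zero' := by simp
  map_add' a b := by
    rw [map_add, add_smul, smul_add]
    abel

omit [Finite ι] in
theorem l_ent (u w : Λ) (i j : ι) : l j (ent l u i w) = l i w * l j u - l i u * l j w := by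
  simp [ent]

variable (l) in
/-- three points in general position -/
def Gp (u v w : Λ) : Prop :=
  ∀ a b c : ℤ, (a ≠ 0 ∨ b ≠ 0 ∨ c ≠ 0) → Cd2 l (a • u + b • v + c • w)

theorem exists_gp (l : ι → Λ →+ ℤ) {U V W : Λ → Prop} {u v w : Λ} (hU : Opn U u) (hV : Opn V v)
    (hW : Opn W w) : ∃ u v w, U u ∧ V v ∧ W w ∧ Gp l u v w := by
  obtain ⟨u, hu, h1⟩ := hU.exists_cham l
  obtain ⟨v, hv, h2⟩ := hV.exists_cham fun p : ι × ι => (l p.2).comp (ent l u p.1)
  obtain ⟨w, hw, h3⟩ := hW.exists_cham fun p : ι × ι × ι =>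
    l p.2.1 (ent l u p.1 v) • l p.2.2 + l p.2.2 (ent l u p.2.1 v) • l p.1 +
      l p.1 (ent l u p.2.2 v) • l p.2.1
  refine ⟨u, v, w, hu, hv, hw, fun a b c h0 => ?_⟩
  set z := a • u + b • v + c • w with hz
  have e : ∀ i, l i z = a * l i u + b * l i v + c * l i w := fun i => by simp [hz]
  by_cases h4 : ∃ i j, l i z = 0 ∧ l j z = 0 ∧ l j (ent l u i v) ≠ 0
  · obtain ⟨i, j, hi, hj, h4⟩ := h4
    refine cd2_of (l i) (l j) fun y h5 h6 k hk => ?_
    have h7 := DFunLike.congr_fun (h3 (i, j, k) (by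
      rw [e] at hi hj hk
      simp only [AddMonoidHom.add_apply, AddMonoidHom.smul_apply, l_ent, smul_eq_mul]
      rcases h0 with h0 | h0 | h0 <;> refine mul_left_cancel₀ h0 ?_
      · linear_combination (l j w * l k v - l k w * l j v) * hi + (l k w * l i v - l i w * l k v) * hj
          + (l i w * l j v - l j w * l i v) * hk
      · linear_combination (l k w * l j u - l j w * l k u) * hi + (l i w * l k u - l k w * l i u) * hj
          + (l j w * l i u - l i w * l j u) * hk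
      · linear_combination (l j v * l k u - l k v * l j u) * hi + (l k v * l i u - l i v * l k u) * hj
          + (l i v * l j u - l j v * l i u) * hk)) y
    simpa [h5, h6, h4] using h7
  by_cases h5 : ∃ i, l i z = 0 ∧ l i u ≠ 0
  · obtain ⟨i, hi, h5⟩ := h5
    refine cd2_of (l i) 0 fun y h6 _ k hk => ?_
    have h7 := DFunLike.congr_fun (h2 (i, k) (by
      by_contra h
      exact h4 ⟨i, k, hi, hk, h⟩)) y
    simpa [l_ent, h6, h5] using h7
  · refine cd2_of 0 0 fun y _ _ k hk => ?_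
    rw [h1 k (by
      by_contra h
      exact h5 ⟨k, hk, h⟩)]
    rfl

/-! ### the star of a point of codimension two -/

variable (l) in
/-- two chambers of `S` with a common face on the segment between them -/
def Wl (S : Λ → Prop) (y y' : Λ) : Prop :=
  S y ∧ S y' ∧ Cham l y ∧ Cham l y' ∧ ∃ i j : ℕ, 0 < i ∧ 0 < j ∧
    Face l (i • y + j • y') y ∧ Face l (i • y + j • y') y'

omit [Finite ι] in
theorem Wl.symm {S : Λ → Prop} {y' : Λ} (h : Wl l S y y') : Wl l S y' y := by
  obtain ⟨h1, h2, h3, h4, i, j, h5, h6, h7, h8⟩ := h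
  exact ⟨h2, h1, h4, h3, j, i, h6, h5, add_comm (i • y) _ ▸ h8, add_comm (i • y) _ ▸ h7⟩

omit [Finite ι] in
theorem Cd1.exists_comb {y' : Λ} (h : Cd1 l z) (hy : Cham l y) (hy' : Cham l y') (h1 : Face l z y)
    (h2 : Face l z y') : ∃ i j : ℕ, 0 < i ∧ 0 < j ∧
      Face l (i • y + j • y') y ∧ Face l (i • y + j • y') y' := by
  by_cases hc : Conf l y y'
  · exact ⟨1, 1, one_pos, one_pos, by
      simpa using ⟨hy.symm hc.face_add, add_comm y' y ▸ hy'.symm hc.symm.face_add⟩⟩
  obtain ⟨k, hk⟩ := not_forall.1 hc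
  rw [not_le] at hk
  have h3 : l k z = 0 := by
    by_contra h3
    nlinarith [mul_pos ((h1 k).resolve_left h3) ((h2 k).resolve_left h3), mul_self_pos.2 h3]
  have h4 : l k y ≠ 0 := fun h => by simp [h] at hk
  have h5 : l k y' ≠ 0 := fun h => by simp [h] at hk
  obtain ⟨a, b, h6, h7⟩ := h y y'
  have h8 := h7 k h3
  rw [map_add, map_zsmul, map_zsmul, smul_eq_mul, smul_eq_mul] at h8
  have h9 : a ≠ 0 := fun h => by simp_all
  have h10 : l k y' • y - l k y • y' ∈ Zs l z := mem_Zs_of_zsmul h9 (by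
    convert zsmul_mem h7 (l k y') using 1
    rw [smul_sub, smul_add, smul_smul, smul_smul, smul_smul, smul_smul, sub_eq_add_neg, ← neg_smul,
      mul_comm a, eq_neg_of_add_eq_zero_left h8, neg_neg, mul_comm b])
  have h11 : (l k y').natAbs • y + (l k y).natAbs • y' ∈ Zs l z := by
    rw [← natCast_zsmul, ← natCast_zsmul, Int.natCast_natAbs, Int.natCast_natAbs]
    rcases mul_neg_iff.1 hk with h | h
    · rw [abs_of_neg h.2, abs_of_pos h.1, neg_smul, neg_add_eq_sub, ← neg_sub]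
      exact neg_mem h10
    · rwa [abs_of_pos h.2, abs_of_neg h.1, neg_smul, ← sub_eq_add_neg]
  have h12 := ((h1.nsmul (Int.natAbs_pos.2 h5)).add
    (h2.conf.nsmul (l k y).natAbs)).symm_of_mem h11
  exact ⟨_, _, Int.natAbs_pos.2 h5, Int.natAbs_pos.2 h4, h12.trans h1, h12.trans h2⟩

theorem reflTransGen_of_eqvGen {α : Type*} {r : α → α → Prop} (hr : ∀ a b, r a b → r b a)
    {a b : α} (h : Relation.EqvGen r a b) : Relation.ReflTransGen r a b := by
  induction h with
  | rel _ _ h => exact .single h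
  | refl => exact .refl
  | symm _ _ _ ih =>
    exact ih.head_induction_on .refl fun h _ h' => h'.tail (hr _ _ h)
  | trans _ _ _ _ _ h1 h2 => exact h1.trans h2

/-- **walls**: in a convex cone of points of codimension at most one, two chambers are joined by
a chain of walls -/
theorem walls {S : Λ → Prop} (hS : ∀ x y, S x → S y → S (x + y)) (h : ∀ p, S p → Cd1 l p)
    {y' : Λ} (hy : S y) (hy' : S y') (cy : Cham l y) (cy' : Cham l y') :
    Relation.ReflTransGen (Wl l S) y y' := by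
  have hY : ∀ p, ∃ q, S p → S q ∧ Cham l q ∧ Face l p q ∧ (Cham l p → q = p) := fun p => by
    by_cases hp : Cham l p
    · exact ⟨p, fun h => ⟨h, hp, .rfl, fun _ => rfl⟩⟩
    obtain ⟨m, h1, h2, h3⟩ := ((eventually_gt_atTop 0).and ((cy.ev p).and (opn_face l p y))).exists
    exact ⟨_, fun h => ⟨hS _ _ (add_closed hS h h1) hy, h2, h3, fun h => absurd h hp⟩⟩
  choose Y hY using hY
  rw [← (hY y hy).2.2.2 cy, ← (hY y' hy').2.2.2 cy']
  refine reflTransGen_of_eqvGen (fun _ _ => Wl.symm) (chain l hS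
    (R := fun p q => Relation.EqvGen (Wl l S) (Y p) (Y q))
    ((Relation.EqvGen.is_equivalence _).comap Y) (fun p q hp hq hf => .rel _ _ ?_) hy hy')
  obtain ⟨h1, h2, h3, -⟩ := hY p hp
  obtain ⟨h4, h5, h6, -⟩ := hY q hq
  exact ⟨h1, h4, h2, h5, (h p hp).exists_comb h2 h5 h3 (hf.trans h6)⟩



/-! ### the path -/

variable (l I) in
/-- `y` is the chamber of the cone at the facet `f ∈ O` of its boundary -/
structure Fct (O : Λ → Prop) (f y : Λ) : Prop where
  cham : Cham l y
  mem : In l I y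
  pos : O f
  bd : ¬ Inn l I f
  cd : Cd1 l f
  face : Face l f y

variable (l I) in
/-- a link: two facets of the boundary with a common face `x ∈ O` of codimension at most two -/
def Lk (O : Λ → Prop) (f f' : Λ) : Prop :=
  ∃ x y y', O x ∧ ¬ Inn l I x ∧ Cd2 l x ∧ Face l x f ∧ Face l x f' ∧
    Fct l I O f y ∧ Fct l I O f' y'

omit [Finite ι] in
theorem Lk.symm {O : Λ → Prop} {f f' : Λ} (h : Lk l I O f f') : Lk l I O f' f := by
  obtain ⟨x, y, y', h1, h2, h3, h4, h5, h6, h7⟩ := h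
  exact ⟨x, y', y, h1, h2, h3, h5, h4, h7, h6⟩

omit [Finite ι] in
theorem ent_face {u : Λ} {i j : ι} (hi : i ∈ I) (hj : j ∈ I) (h1 : l i u < 0) (h2 : l j u < 0)
    (h3 : In l I (ent l u i w)) (h4 : In l I (ent l u j w)) :
    Face l (ent l u i w) (ent l u j w) := fun k => by
  have h5 := h3 j hj
  have h6 := h4 i hi
  rw [l_ent] at h5 h6
  have h7 : l j u * l k (ent l u i w) = l i u * l k (ent l u j w) := by
    rw [l_ent, l_ent]
    linear_combination l k u * (le_antisymm (by linarith) h5 : l i w * l j u - l i u * l j w = 0)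
  refine (eq_or_ne _ 0).imp_right fun h8 => ?_
  have h9 : 0 < -l i u * (l k (ent l u i w) * l k (ent l u j w)) := by
    refine (mul_pos (neg_pos.2 h2) (mul_self_pos.2 h8)).trans_eq ?_
    linear_combination -l k (ent l u i w) * h7
  exact (mul_pos_iff_of_pos_left (neg_pos.2 h1)).1 h9

theorem exists_ent {u : Λ} (hu : ¬ In l I u) (hw : Inn l I w) :
    ∃ i ∈ I, l i u < 0 ∧ 0 < l i w ∧ In l I (ent l u i w) := by
  have hp : ∀ i ∈ I, l i u < 0 → 0 < l i w := fun i hi h =>
    (hw i hi).resolve_left fun h1 => by simp [h1] at h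
  obtain ⟨i, ⟨hi, h1⟩, h2⟩ := Set.exists_min_image {i | i ∈ I ∧ l i u < 0}
    (fun i => (l i w : ℚ) / (-l i u : ℤ)) (Set.toFinite _)
    (show ∃ i ∈ I, l i u < 0 by simpa only [In, not_forall, not_le, exists_prop] using hu)
  refine ⟨i, hi, h1, hp i hi h1, fun j hj => ?_⟩
  rw [l_ent]
  by_cases h3 : l j u < 0
  · have h4 := h2 j ⟨hj, h3⟩
    rw [div_le_div_iff₀ (Int.cast_pos.2 (neg_pos.2 h1)) (Int.cast_pos.2 (neg_pos.2 h3))] at h4
    have h5 : l i w * -l j u ≤ l j w * -l i u := by exact_mod_cast h4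
    linarith
  · nlinarith [mul_nonneg (hp i hi h1).le (not_lt.1 h3), mul_nonneg (neg_pos.2 h1).le (hw.in j hj)]

omit [Finite ι] in
theorem ent_mem {S : Λ → Prop} (hS : ∀ x y, S x → S y → S (x + y)) {u : Λ} {i : ι} (hu : S u)
    (hw : S w) (h1 : l i u < 0) (h2 : 0 < l i w) : S (ent l u i w) := by
  have h3 := hS _ _ (add_closed hS hu (Int.natAbs_pos.2 h2.ne'))
    (add_closed hS hw (Int.natAbs_pos.2 h1.ne))
  rwa [← natCast_zsmul, ← natCast_zsmul, Int.natCast_natAbs, Int.natCast_natAbs, abs_of_pos h2,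
    abs_of_neg h1, neg_smul, ← sub_eq_add_neg] at h3

omit [Finite ι] in
theorem not_inn_ent {u : Λ} {i : ι} (hi : i ∈ I) (h1 : l i u < 0) : ¬ Inn l I (ent l u i w) :=
  fun h => by
    rcases h i hi with h | h
    · simp [h] at h1
    · rw [l_ent] at h
      linarith

/-- **the path of links**: `O`, `R`, `R'` are open convex cones, `u ∈ O ∩ R ∩ R'` lies outside
the cone of `I`, `v ∈ O ∩ R` and `w ∈ O ∩ R'` lie in its interior -/
theorem path {O R R' : Λ → Prop} (hO : ∀ x y, O x → O y → O (x + y))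
    (hR : ∀ x y, R x → R y → R (x + y)) (hR' : ∀ x y, R' x → R' y → R' (x + y))
    (oO : ∀ x, O x → Opn O x) (oR : ∀ x, R x → Opn R x) (oR' : ∀ x, R' x → Opn R' x)
    {u v w : Λ} (hu : ¬ In l I u) (hv : Inn l I v) (hw : Inn l I w) (Ou : O u) (Ov : O v)
    (Ow : O w) (Ru : R u) (Ru' : R' u) (Rv : R v) (Rw : R' w) :
    ∃ f f', R f ∧ R' f' ∧ (∃ y, Fct l I O f y) ∧ (∃ y, Fct l I O f' y) ∧
      Relation.ReflTransGen (Lk l I O) f f' := by
  classical
  have oI : Opn (fun y => ¬ In l I y) u := by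
    obtain ⟨i, hi, h⟩ : ∃ i ∈ I, l i u < 0 := by
      simpa only [In, not_forall, not_le, exists_prop] using hu
    exact (opn_neg (l i) h).mono fun y h1 h2 => absurd (h2 i hi) (not_le.2 h1)
  obtain ⟨u, v, w, ⟨⟨hu, Ou⟩, Ru, Ru'⟩, ⟨hv, Ov, Rv⟩, ⟨hw, Ow, Rw⟩, hg⟩ :=
    exists_gp l ((oI.and (oO u Ou)).and ((oR u Ru).and (oR' u Ru')))
      (hv.opn.and ((oO v Ov).and (oR v Rv))) (hw.opn.and ((oO w Ow).and (oR' w Rw)))
  set g := fun p : ι × ι => (l p.2).comp (ent l u p.1) with hg'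
  let S : Λ → Prop := fun p => Inn l I p ∧ O p ∧ ∃ b c : ℤ, p = b • v + c • w
  have hS : ∀ p q, S p → S q → S (p + q) := by
    rintro _ _ ⟨h1, h2, b, c, rfl⟩ ⟨h6, h7, b', c', rfl⟩
    exact ⟨h1.add_in h6.in, hO _ _ h2 h7, b + b', c + c', by module⟩
  have imp : ∀ {T : Λ → Prop}, (∀ x, T x → Opn T x) → ∀ {p q : Λ}, (T p → T q) →
      Opn (fun y => T p → T y) q := fun {T} oT p q hT => by
    by_cases h : T p
    · exact (oT _ (hT h)).mono fun _ h _ => h
    · exact fun _ => .of_forall fun _ h' => absurd h' h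
  have hY : ∀ p, ∃ f, S p → ∃ i ∈ I, ∃ q, f = ent l u i q ∧ l i u < 0 ∧ Face g p q ∧
      (∃ y, Fct l I O f y) ∧ (R p → R f) ∧ (R' p → R' f) := fun p => by
    by_cases hp : S p
    swap
    · exact ⟨0, fun h => absurd h hp⟩
    obtain ⟨q, ⟨⟨⟨h1, h2⟩, h3⟩, h4, h5⟩, h6⟩ := (((hp.1.opn.and (oO p hp.2.1)).and
      (opn_face g p)).and ((imp oR (p := p) id).and (imp oR' (p := p) id))).exists_cham g
    obtain ⟨i, hi, h7, h8, h9⟩ := exists_ent hu h1
    obtain ⟨y, -, h13, h14, h15⟩ := h9.exists_cham h1 (opn_face l _)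
    refine ⟨_, fun _ => ⟨i, hi, q, rfl, h7, h3, ⟨y, h13, h14, ent_mem hO Ou h2 h7 h8,
      not_inn_ent hi h7, cd1_of (l i) fun z hz k hk => ?_, h15⟩,
      fun h => ent_mem hR Ru (h4 h) h7 h8, fun h => ent_mem hR' Ru' (h5 h) h7 h8⟩⟩
    simpa [hg', l_ent, hz, h7.ne] using DFunLike.congr_fun (h6 (i, k) hk) z
  choose Y hY using hY
  have Sv : S v := ⟨hv, Ov, 1, 0, by simp⟩
  have Sw : S w := ⟨hw, Ow, 0, 1, by simp⟩
  obtain ⟨i, -, q, -, -, -, h1, h2, -⟩ := hY v Sv
  obtain ⟨i', -, q', -, -, -, h3, -, h4⟩ := hY w Sw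
  refine ⟨Y v, Y w, h2 Rv, h4 Rw, h1, h3,
    reflTransGen_of_eqvGen (fun _ _ => Lk.symm) (chain g hS
    (R := fun p q => Relation.EqvGen (Lk l I O) (Y p) (Y q))
    ((Relation.EqvGen.is_equivalence _).comap Y) (fun p q hp hq hf => .rel _ _ ?_) Sv Sw)⟩
  obtain ⟨i, hi, p', e1, h5, h6, ⟨y, h7⟩, -⟩ := hY p hp
  obtain ⟨j, hj, q', e2, h8, h9, ⟨y', h10⟩, -⟩ := hY q hq
  rw [e1] at h7 ⊢
  rw [e2] at h10 ⊢
  have h11 : Face l (ent l u i p) (ent l u i p') := fun k => h6 (i, k)
  have h12 : Face l (ent l u j p) (ent l u j q') := fun k => (hf.trans h9) (j, k)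
  have h13 : 0 < l i p := (hp.1 i hi).resolve_left fun h => by simp [h] at h5
  refine ⟨ent l u i p, _, _, ent_mem hO Ou hp.2.1 h5 h13, not_inn_ent hi h5, ?_, h11,
    (ent_face hi hj h5 h8 ((h7.mem.of_face h7.face).of_face h11)
      ((h10.mem.of_face h10.face).of_face h12)).trans h12, h7, h10⟩
  obtain ⟨-, -, b, c, e⟩ := hp
  have h14 := hg (l i p) (-l i u * b) (-l i u * c) (.inl h13.ne')
  rwa [show l i p • u + (-l i u * b) • v + (-l i u * c) • w = ent l u i p by
    change _ = l i p • u - l i u • p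
    generalize l i p = t
    rw [e]
    module] at h14

end Crest.Agent.X262.Sark46
namespace Crest.Agent.X262.Sark46.Inn
end Crest.Agent.X262.Sark46.Inn
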